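import Mathlib

/-! P319, block SC, ALG-CYC, part 1: the closure of equality under composition and successors of
related points are related; separation of the classes by power sums. (Pure combinatorics, stated
for a copy `KR` of `KRel`.) -/

set_option linter.all false

namespace Vale.Agent.P319.SC.H763

open Polynomial

section
variable {V : Type}

/-- copy of `KRel` -/
def KR (R : V → V → Prop) : ℕ → V → V → Prop
  | 0, a, b => a = b
  | t + 1, a, b => KR R t a b ∨ (∃ c, KR R t a c ∧ KR R t c b) ∨
      ∃ c d, R c a ∧ KR R t c d ∧ R d b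

variable {R : V → V → Prop}

theorem KR_refl (t : ℕ) (a : V) : KR R t a a := by
  induction t with
  | zero => rfl
  | succ t ih => exact Or.inl ih

theorem KR_mono {s t : ℕ} (h : s ≤ t) {a b : V} (hab : KR R s a b) : KR R t a b := by
  induction t, h using Nat.le_induction with
  | base => exact hab
  | succ t _ ih => exact Or.inl ih

theorem KR_symm {t : ℕ} {a b : V} (h : KR R t a b) : KR R t b a := by
  induction t generalizing a b with
  | zero => exact h.symm
  | succ t ih =>
    rcases h with h | ⟨c, h1, h2⟩ | ⟨c, d, h1, h2, h3⟩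
    · exact Or.inl (ih h)
    · exact Or.inr (Or.inl ⟨c, ih h2, ih h1⟩)
    · exact Or.inr (Or.inr ⟨d, c, h3, ih h2, h1⟩)

/-- functions compatible with the relation are constant on the classes -/
theorem KR_const {r : ℕ} {h : V → ZMod r} (hh : ∀ a b, R a b → h b = h a + 1) {t : ℕ} {a b : V}
    (hab : KR R t a b) : h a = h b := by
  induction t generalizing a b with
  | zero => exact congrArg h hab
  | succ t ih =>
    rcases hab with h1 | ⟨c, h1, h2⟩ | ⟨c, d, h1, h2, h3⟩
    · exact ih h1
    · exact (ih h1).trans (ih h2)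
    · rw [hh _ _ h1, hh _ _ h3, ih h2]

theorem KR_mem {Y : V → Prop} (hY : ∀ a b, R a b → Y b) {t : ℕ} {a b : V}
    (hab : KR R t a b) : a = b ∨ (Y a ∧ Y b) := by
  induction t generalizing a b with
  | zero => exact Or.inl hab
  | succ t ih =>
    rcases hab with h1 | ⟨c, h1, h2⟩ | ⟨c, d, h1, h2, h3⟩
    · exact ih h1
    · rcases ih h1 with rfl | ⟨h3, h4⟩
      · exact ih h2
      · rcases ih h2 with rfl | ⟨h5, h6⟩
        · exact Or.inr ⟨h3, h4⟩
        · exact Or.inr ⟨h3, h6⟩
    · exact Or.inr ⟨hY _ _ h1, hY _ _ h3⟩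

theorem KR_succ_congr {s t : ℕ} (h : ∀ a b, KR R s a b ↔ KR R t a b) (a b : V) :
    KR R (s + 1) a b ↔ KR R (t + 1) a b := by
  simp only [KR, h]

/-- the closure is reached after `|V| ^ 2` steps -/
theorem KR_stable [Fintype V] {a b : V} (h : KR R (Fintype.card V ^ 2 + 1) a b) :
    KR R (Fintype.card V ^ 2) a b := by
  classical
  set S : ℕ → Finset (V × V) := fun t => Finset.univ.filter fun x => KR R t x.1 x.2 with hS
  have hmem : ∀ t x, x ∈ S t ↔ KR R t x.1 x.2 := by intro t x; simp [hS]
  have hmono : ∀ t, S t ⊆ S (t + 1) := by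
    intro t x hx
    rw [hmem] at hx ⊢
    exact Or.inl hx
  obtain ⟨t, ht, hst⟩ : ∃ t, t ≤ Fintype.card V ^ 2 ∧ S (t + 1) = S t := by
    by_contra hcon
    push Not at hcon
    have h1 : ∀ t, t ≤ Fintype.card V ^ 2 + 1 → t ≤ (S t).card := by
      intro t
      induction t with
      | zero => intro _; exact Nat.zero_le _
      | succ t ih =>
        intro h2
        have h3 := ih (by omega)
        have h4 := Finset.card_lt_card (Finset.ssubset_iff_subset_ne.2
          ⟨hmono t, (hcon t (by omega)).symm⟩)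
        omega
    have h2 := h1 (Fintype.card V ^ 2 + 1) le_rfl
    have h3 : (S (Fintype.card V ^ 2 + 1)).card ≤ Fintype.card (V × V) := Finset.card_le_univ _
    rw [Fintype.card_prod] at h3
    have h4 : Fintype.card V ^ 2 = Fintype.card V * Fintype.card V := sq _
    omega
  have key : ∀ s, t ≤ s → ∀ a b, KR R (s + 1) a b ↔ KR R s a b := by
    intro s hs
    induction s, hs using Nat.le_induction with
    | base =>
      intro a b
      have := Finset.ext_iff.1 hst (a, b)
      rw [hmem, hmem] at this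
      exact this
    | succ s _ ih =>
      intro a b
      exact KR_succ_congr ih a b
  exact (key _ ht a b).1 h

/-- the closure -/
theorem KR_trans [Fintype V] {a b c : V} (h1 : KR R (Fintype.card V ^ 2) a b)
    (h2 : KR R (Fintype.card V ^ 2) b c) : KR R (Fintype.card V ^ 2) a c :=
  KR_stable (Or.inr (Or.inl ⟨b, h1, h2⟩))

theorem KR_step [Fintype V] {a b c d : V} (h1 : R c a) (h2 : KR R (Fintype.card V ^ 2) c d)
    (h3 : R d b) : KR R (Fintype.card V ^ 2) a b :=
  KR_stable (Or.inr (Or.inr ⟨c, d, h1, h2, h3⟩))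

end

/-! ### The cyclic structure -/

section
variable {V : Type} [Fintype V]

/-- the data: `pt s` is a point of the class `π ^ s [a₀]` -/
theorem exists_orbit {R : V → V → Prop} {Y : V → Prop} (hRY : ∀ a b, R a b → Y a ∧ Y b)
    (hsucc : ∀ a, Y a → ∃ b, R a b) (hpred : ∀ b, Y b → ∃ a, R a b) {r : ℕ} (hr : r.Prime)
    {h : V → ZMod r} (hh : ∀ a b, R a b → h b = h a + 1) {a₀ : V} (ha₀ : Y a₀) :
    ∃ (σ : V → V) (j : ℕ), (∀ a, Y a → R a (σ a)) ∧ (∀ s, Y (σ^[s] a₀)) ∧ 0 < j ∧
      r * j ≤ Fintype.card V ∧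
      (∀ s t, KR R (Fintype.card V ^ 2) (σ^[s] a₀) (σ^[t] a₀) ↔ s % (r * j) = t % (r * j)) := by
  classical
  set K := KR R (Fintype.card V ^ 2) with hK
  choose! σ hσ using hsucc
  have hY : ∀ s, Y (σ^[s] a₀) := by
    intro s
    induction s with
    | zero => exact ha₀
    | succ s ih => rw [Function.iterate_succ_apply']; exact (hRY _ _ (hσ _ ih)).2
  let st : Setoid {a : V // Y a} :=
    { r := fun a b => K a.1 b.1
      iseqv := ⟨fun a => KR_refl _ _, fun h => KR_symm h, fun h1 h2 => KR_trans h1 h2⟩ }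
  let Q := Quotient st
  let π : Q → Q := Quotient.map (fun a => (⟨σ a.1, (hRY _ _ (hσ _ a.2)).2⟩ : {a : V // Y a}))
    (fun a b hab => KR_step (hσ _ a.2) hab (hσ _ b.2))
  have hπ : ∀ a : {a : V // Y a}, π (Quotient.mk st a) =
      Quotient.mk st ⟨σ a.1, (hRY _ _ (hσ _ a.2)).2⟩ := fun a => rfl
  have hsurj : Function.Surjective π := by
    intro q
    induction q using Quotient.inductionOn with
    | h b =>
      obtain ⟨a, hab⟩ := hpred b.1 b.2
      refine ⟨Quotient.mk st ⟨a, (hRY _ _ hab).1⟩, ?_⟩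
      rw [hπ]
      exact Quotient.sound (KR_step (hσ _ (hRY _ _ hab).1) (KR_refl _ a) hab)
  have hfin : Finite Q := Quotient.finite st
  have hinj : Function.Injective π := Finite.injective_iff_surjective.2 hsurj
  have hit : ∀ s, π^[s] (Quotient.mk st ⟨a₀, ha₀⟩) = Quotient.mk st ⟨σ^[s] a₀, hY s⟩ := by
    intro s
    induction s with
    | zero => rfl
    | succ s ih =>
      rw [Function.iterate_succ_apply', ih, hπ]
      congr 1
      exact Subtype.ext (Function.iterate_succ_apply' σ s a₀).symm
  set x0 : Q := Quotient.mk st ⟨a₀, ha₀⟩ with hx0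
  have hper : x0 ∈ Function.periodicPts π := hinj.mem_periodicPts x0
  set L := Function.minimalPeriod π x0 with hL
  have hL0 : 0 < L := Function.minimalPeriod_pos_of_mem_periodicPts hper
  have hKiff : ∀ s t, K (σ^[s] a₀) (σ^[t] a₀) ↔ s % L = t % L := by
    intro s t
    have h1 : K (σ^[s] a₀) (σ^[t] a₀) ↔ π^[s] x0 = π^[t] x0 := by
      rw [hit, hit]
      constructor
      · intro h; exact Quotient.sound h
      · intro h; exact Quotient.exact h
    rw [h1]
    constructor
    · intro h2
      rw [← Function.iterate_mod_minimalPeriod_eq (f := π) (x := x0) (n := s),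
        ← Function.iterate_mod_minimalPeriod_eq (f := π) (x := x0) (n := t)] at h2
      exact Function.iterate_injOn_Iio_minimalPeriod (f := π) (x := x0)
        (Nat.mod_lt _ hL0) (Nat.mod_lt _ hL0) h2
    · intro h2
      rw [← Function.iterate_mod_minimalPeriod_eq (f := π) (x := x0) (n := s),
        ← Function.iterate_mod_minimalPeriod_eq (f := π) (x := x0) (n := t)]
      show π^[s % L] x0 = π^[t % L] x0
      rw [h2]
  have hrL : r ∣ L := by
    have h1 : K (σ^[L] a₀) (σ^[0] a₀) := (hKiff L 0).2 (by simp)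
    have h2 := KR_const hh h1
    have h3 : ∀ s, h (σ^[s] a₀) = h a₀ + s := by
      intro s
      induction s with
      | zero => simp
      | succ s ih =>
        rw [Function.iterate_succ_apply', hh _ _ (hσ _ (hY s)), ih]
        push_cast
        ring
    rw [h3, h3] at h2
    have h4 : ((L : ℕ) : ZMod r) = 0 := by
      have := add_left_cancel h2
      simpa using this
    exact (ZMod.natCast_eq_zero_iff _ _).1 h4
  obtain ⟨j, hj⟩ := hrL
  have hLn : L ≤ Fintype.card V := by
    have h5 : Function.Injective fun i : Fin L => (σ^[i.1] a₀) := by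
      intro i j hij
      have h6 : K (σ^[i.1] a₀) (σ^[j.1] a₀) := by
        have : σ^[i.1] a₀ = σ^[j.1] a₀ := hij
        rw [this]
        exact KR_refl _ _
      have h7 := (hKiff _ _).1 h6
      rw [Nat.mod_eq_of_lt i.2, Nat.mod_eq_of_lt j.2] at h7
      exact Fin.ext h7
    have h6 := Fintype.card_le_of_injective _ h5
    simpa using h6
  refine ⟨σ, j, hσ, hY, ?_, ?_, ?_⟩
  · rcases Nat.eq_zero_or_pos j with h5 | h5
    · rw [h5, mul_zero] at hj; omega
    · exact h5
  · rw [← hj]; exact hLn
  · rw [← hj]; exact hKiff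

end

/-! ### Separation of the classes -/

section
variable {p : ℕ} [hpf : Fact p.Prime] {Z : Finset (ZMod p)}

open Classical in
/-- copy of `B0` -/
noncomputable def B0' (K : Z → Z → Prop) (τ : ZMod p) (a : Z) : ZMod p :=
  ∑ z : Z, if K a z then ∑ j ∈ Finset.range (Z.card + 1), (τ * z) ^ j else 0

open Classical in
/-- Vandermonde -/
theorem vander (c : Z → ZMod p)
    (h : ∀ j < Z.card + 1, ∑ z : Z, c z * (z : ZMod p) ^ j = 0) (a : Z) : c a = 0 := by
  set q : (ZMod p)[X] := ∏ z ∈ Z.erase a.1, (X - C z) with hq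
  have hdeg : q.natDegree < Z.card + 1 := by
    have h1 : q.natDegree = (Z.erase a.1).card := by
      rw [hq, natDegree_prod_of_monic _ _ fun z _ => monic_X_sub_C z]
      simp
    rw [h1]
    exact Nat.lt_succ_of_le (Finset.card_le_card (Finset.erase_subset _ _))
  have h1 : ∑ z : Z, c z * q.eval (z : ZMod p) = 0 := by
    have h2 : ∀ z : Z, c z * q.eval (z : ZMod p) =
        ∑ j ∈ Finset.range (Z.card + 1), q.coeff j * (c z * (z : ZMod p) ^ j) := by
      intro z
      rw [eval_eq_sum_range' hdeg, Finset.mul_sum]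
      exact Finset.sum_congr rfl fun j _ => by ring
    simp only [h2]
    rw [Finset.sum_comm]
    apply Finset.sum_eq_zero
    intro j hj
    rw [← Finset.mul_sum, h j (Finset.mem_range.1 hj), mul_zero]
  have h2 : ∀ z : Z, z ≠ a → q.eval (z : ZMod p) = 0 := by
    intro z hz
    rw [hq, eval_prod]
    apply Finset.prod_eq_zero (i := (z : ZMod p))
    · exact Finset.mem_erase.2 ⟨fun h => hz (Subtype.ext h), z.2⟩
    · simp
  have h3 : q.eval (a : ZMod p) ≠ 0 := by
    rw [hq, eval_prod, Finset.prod_ne_zero_iff]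
    intro z hz
    simp only [eval_sub, eval_X, eval_C]
    exact sub_ne_zero.2 (Finset.mem_erase.1 hz).1.symm
  rw [Finset.sum_eq_single a] at h1
  · exact (mul_eq_zero.1 h1).resolve_right h3
  · intro z _ hz
    rw [h2 z hz, mul_zero]
  · intro h; exact absurd (Finset.mem_univ _) h

open Classical in
/-- the difference as a polynomial in `τ` -/
noncomputable def difP (K : Z → Z → Prop) (a b : Z) : (ZMod p)[X] :=
  ∑ j ∈ Finset.range (Z.card + 1),
    C (∑ z : Z, ((if K a z then (1 : ZMod p) else 0) - (if K b z then 1 else 0)) *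
      (z : ZMod p) ^ j) * X ^ j

theorem difP_eval (K : Z → Z → Prop) (a b : Z) (τ : ZMod p) :
    (difP K a b).eval τ = B0' K τ a - B0' K τ b := by
  classical
  unfold difP B0'
  rw [eval_finset_sum, ← Finset.sum_sub_distrib]
  have h1 : ∀ z : Z, ((if K a z then ∑ j ∈ Finset.range (Z.card + 1), (τ * (z : ZMod p)) ^ j else 0) -
      if K b z then ∑ j ∈ Finset.range (Z.card + 1), (τ * (z : ZMod p)) ^ j else 0) =
      ∑ j ∈ Finset.range (Z.card + 1), ((if K a z then (1 : ZMod p) else 0) -
        (if K b z then 1 else 0)) * (z : ZMod p) ^ j * τ ^ j := by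
    intro z
    rw [← Finset.sum_congr rfl fun j _ => (mul_assoc _ _ _).symm]
    rw [← Finset.mul_sum]
    have h2 : ∑ j ∈ Finset.range (Z.card + 1), (z : ZMod p) ^ j * τ ^ j =
        ∑ j ∈ Finset.range (Z.card + 1), (τ * (z : ZMod p)) ^ j :=
      Finset.sum_congr rfl fun j _ => by rw [mul_pow, mul_comm]
    rw [h2]
    by_cases h3 : K a z <;> by_cases h4 : K b z <;> simp [h3, h4]
  simp only [h1]
  rw [Finset.sum_comm]
  apply Finset.sum_congr rfl
  intro j _
  rw [eval_mul, eval_C, eval_pow, eval_X, Finset.sum_mul]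

theorem difP_deg (K : Z → Z → Prop) (a b : Z) : (difP K a b).natDegree ≤ Z.card := by
  unfold difP
  apply natDegree_sum_le_of_forall_le
  intro j hj
  refine (natDegree_C_mul_X_pow_le _ _).trans ?_
  have := Finset.mem_range.1 hj
  omega

theorem difP_ne (K : Z → Z → Prop) (hrefl : ∀ a, K a a) (a b : Z) (hab : ¬ K b a) :
    difP K a b ≠ 0 := by
  classical
  intro h0
  have h1 := vander (fun z : Z => (if K a z then (1 : ZMod p) else 0) - (if K b z then 1 else 0))
    (by
      intro j hj
      have h2 : (difP K a b).coeff j = 0 := by rw [h0, coeff_zero]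
      unfold difP at h2
      rw [finset_sum_coeff] at h2
      simp only [coeff_C_mul, coeff_X_pow, mul_ite, mul_one, mul_zero] at h2
      rw [Finset.sum_ite_eq, if_pos (Finset.mem_range.2 hj)] at h2
      exact h2) a
  simp only [hrefl a, hab, if_true, if_false, sub_zero] at h1
  exact one_ne_zero h1

/-- some `τ` separates all classes -/
theorem exists_tau (K : Z → Z → Prop) (hrefl : ∀ a, K a a) (hbig : (Z.card + 1) ^ 3 < p) :
    ∃ τ < (Z.card + 1) ^ 3, ∀ a b, ¬ K b a → B0' K (τ : ZMod p) a ≠ B0' K (τ : ZMod p) b := by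
  classical
  set S : Finset (Z × Z) := Finset.univ.filter fun x => ¬ K x.2 x.1 with hS
  set P : (ZMod p)[X] := ∏ x ∈ S, difP K x.1 x.2 with hP
  have hP0 : P ≠ 0 := by
    rw [hP, Finset.prod_ne_zero_iff]
    intro x hx
    exact difP_ne K hrefl _ _ (by simpa [hS] using hx)
  have hPd : P.natDegree ≤ Z.card ^ 3 := by
    rw [hP]
    refine (natDegree_prod_le _ _).trans ?_
    refine (Finset.sum_le_card_nsmul _ _ Z.card fun x _ => difP_deg K _ _).trans ?_
    rw [smul_eq_mul]
    have h1 : S.card ≤ Z.card * Z.card := by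
      refine (Finset.card_le_univ _).trans ?_
      simp
    calc S.card * Z.card ≤ Z.card * Z.card * Z.card := Nat.mul_le_mul_right _ h1
      _ = Z.card ^ 3 := by ring
  by_contra hcon
  push Not at hcon
  have h1 : ∀ τ < (Z.card + 1) ^ 3, P.IsRoot (τ : ZMod p) := by
    intro τ hτ
    obtain ⟨a, b, hab, he⟩ := hcon τ hτ
    rw [IsRoot.def, hP, eval_prod]
    apply Finset.prod_eq_zero (i := (a, b))
    · simp [hS, hab]
    · rw [difP_eval, he, sub_self]
  have h2 : ((Finset.range ((Z.card + 1) ^ 3)).image fun τ : ℕ => (τ : ZMod p)).card =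
      (Z.card + 1) ^ 3 := by
    rw [Finset.card_image_of_injOn, Finset.card_range]
    intro x hx y hy hxy
    have hx' := Finset.mem_range.1 (Finset.mem_coe.1 hx)
    have hy' := Finset.mem_range.1 (Finset.mem_coe.1 hy)
    have h3 : (x : ZMod p) = y := hxy
    rw [ZMod.natCast_eq_natCast_iff'] at h3
    rwa [Nat.mod_eq_of_lt (hx'.trans hbig), Nat.mod_eq_of_lt (hy'.trans hbig)] at h3
  have h3 : ((Finset.range ((Z.card + 1) ^ 3)).image fun τ : ℕ => (τ : ZMod p)) ⊆
      P.roots.toFinset := by
    intro x hx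
    obtain ⟨τ, hτ, rfl⟩ := Finset.mem_image.1 hx
    rw [Multiset.mem_toFinset, mem_roots hP0]
    exact h1 τ (Finset.mem_range.1 hτ)
  have h4 := Finset.card_le_card h3
  rw [h2] at h4
  have h5 := (Multiset.toFinset_card_le P.roots).trans (card_roots' P)
  have h6 : Z.card ^ 3 < (Z.card + 1) ^ 3 := Nat.pow_lt_pow_left (Nat.lt_succ_self _) (by norm_num)
  omega

end

end Vale.Agent.P319.SC.H763
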