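import Mathlib
import Vale.Agent.P319.SC.AIface
import Vale.Agent.P319.SC.H763.Clo

/-! P319, block SC, ALG-CYC: no cyclic covers in a stable partition. -/

set_option linter.all false

namespace Vale.Agent.P319.SC

open Polynomial Vale.Agent.P319.Ev

theorem H763.KR_iff {V : Type} (R : V → V → Prop) (t : ℕ) (a b : V) :
    H763.KR R t a b ↔ KRel R t a b := by
  induction t generalizing a b with
  | zero => rfl
  | succ t ih =>
    simp only [H763.KR, KRel, ih]

section
variable {p : ℕ} [hpf : Fact p.Prime] {Z : Finset (ZMod p)}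

theorem H763.B0_eq (K : Z → Z → Prop) (τ : ℕ) (a : Z) : B0 K τ a = H763.B0' K (τ : ZMod p) a := rfl

theorem H763.B0_congr {K : Z → Z → Prop} (hsymm : ∀ a b, K a b → K b a)
    (htrans : ∀ a b c, K a b → K b c → K a c) (τ : ℕ) {a b : Z} (hab : K a b) :
    B0 K τ a = B0 K τ b := by
  classical
  unfold B0
  apply Finset.sum_congr rfl
  intro z _
  by_cases h : K a z
  · rw [if_pos h, if_pos (htrans _ _ _ (hsymm _ _ hab) h)]
  · rw [if_neg h, if_neg fun h1 => h (htrans _ _ _ hab h1)]

/-- the iterated step -/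
theorem H763.Tst_iter {R K : Z → Z → Prop} {Y : Z → Prop} (hRY : ∀ a b, R a b → Y a ∧ Y b)
    {κ : ℕ} (hκp : (κ : ZMod p) ≠ 0)
    (hκ : ∀ a, Y a → (Nat.card {z : Z // R a z}) = κ) {σ : Z → Z} (hσ : ∀ a, Y a → R a (σ a))
    (hst : ∀ a b c d, R c a → K c d → R d b → K a b) (hrefl : ∀ a, K a a)
    (t : ℕ) : ∀ f : Z → ZMod p, (∀ a b, Y a → Y b → K a b → f a = f b) → ∀ a, Y a →
      (Tst R κ)^[t] f a = f (σ^[t] a) := by
  classical
  have h1 : ∀ f : Z → ZMod p, (∀ a b, Y a → Y b → K a b → f a = f b) → ∀ a, Y a →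
      Tst R κ f a = f (σ a) := by
    intro f hf a ha
    unfold Tst
    have h2 : ∀ z : Z, (if R a z then f z else 0) = (if R a z then f (σ a) else 0) := by
      intro z
      by_cases h3 : R a z
      · rw [if_pos h3, if_pos h3]
        exact hf _ _ (hRY _ _ h3).2 (hRY _ _ (hσ a ha)).2
          (hst _ _ _ _ h3 (hrefl a) (hσ a ha))
      · rw [if_neg h3, if_neg h3]
    have h3 : ∑ z : Z, (if R a z then f z else 0) = (κ : ZMod p) * f (σ a) := by
      rw [Finset.sum_congr rfl fun z _ => h2 z, ← Finset.sum_filter, Finset.sum_const, nsmul_eq_mul,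
        ← hκ a ha, Nat.card_eq_fintype_card, Fintype.card_subtype]
    rw [show (∑ z : Z, if R a z then f z else 0) = (κ : ZMod p) * f (σ a) from h3, ← mul_assoc,
      inv_mul_cancel₀ hκp, one_mul]
  induction t with
  | zero => intro f _ a _; rfl
  | succ t ih =>
    intro f hf a ha
    rw [Function.iterate_succ_apply, ih (Tst R κ f) ?_ a ha]
    · have hYt : ∀ s, Y (σ^[s] a) := by
        intro s
        induction s with
        | zero => exact ha
        | succ s ih2 => rw [Function.iterate_succ_apply']; exact (hRY _ _ (hσ _ ih2)).2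
      rw [h1 f hf _ (hYt t), Function.iterate_succ_apply']
    · intro b c hb hc hbc
      rw [h1 f hf b hb, h1 f hf c hc]
      exact hf _ _ (hRY _ _ (hσ _ hb)).2 (hRY _ _ (hσ _ hc)).2 (hst _ _ _ _ (hσ b hb) hbc (hσ c hc))

end

/-- **ALG-CYC** -/
theorem cyc (hVL : VLStmt) (hVec : VLVecStmt) : CycStmt := by
  classical
  intro nr p N hpf g Z M E H k hk u hsub hfst hext i r h hr hex hcls hstep
  have hsit := H.ctx.sit
  have hZ2 := H.ctx.two
  have hlen : g.length = Z.card + 1 := by have := hsit.len; omega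
  obtain ⟨a₀, b₀, h0⟩ := hex
  have hiE : i ∈ E := by rw [← h0]; exact col_mem _ _
  set R : Z → Z → Prop := fun a b => col H.good (ins (k + 1) (ins k u a) b) = i with hR
  set Y : Z → Prop := fun a => col H.good (ins k u a) = col H.good (ins k u a₀) with hY
  have hRY : ∀ a b, R a b → Y a ∧ Y b := by
    intro a b hab
    have h1 : col H.good (ins k u a) = col H.good (ins k u a₀) :=
      hfst a b a₀ b₀ ((show col H.good (ins (k + 1) (ins k u a) b) = i from hab).trans h0.symm)
    exact ⟨h1, (hcls a b hab).symm.trans h1⟩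
  have hYa : Y a₀ := rfl
  have hYb : Y b₀ := (hRY a₀ b₀ h0).2
  -- valencies
  set κ : ℕ := Nat.card {z : Z // R a₀ z} with hκdef
  have hκ : ∀ a, Y a → Nat.card {z : Z // R a z} = κ := by
    intro a ha
    have h1 := hext a a₀ ha i
    rw [hκdef, Nat.card_eq_fintype_card, Nat.card_eq_fintype_card, Fintype.card_subtype,
      Fintype.card_subtype]
    exact h1
  have hκ0 : 0 < κ := by
    have : Nonempty {z : Z // R a₀ z} := ⟨⟨b₀, h0⟩⟩
    exact Nat.card_pos
  have hκn : κ ≤ Z.card := by
    have h1 := Nat.card_le_card_of_injective (fun z : {z : Z // R a₀ z} => z.1)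
      Subtype.val_injective
    rw [Nat.card_eq_fintype_card (α := Z), Fintype.card_coe] at h1
    exact h1
  have hsucc : ∀ a, Y a → ∃ b, R a b := by
    intro a ha
    have h1 := hκ a ha
    by_contra hcon
    have h2 : IsEmpty {z : Z // R a z} := ⟨fun z => hcon ⟨z.1, z.2⟩⟩
    rw [Nat.card_of_isEmpty] at h1
    omega
  -- predecessors
  have hpred : ∀ b, Y b → ∃ a, R a b := by
    intro b hb
    have hbb : col H.good (ins k u b) = col H.good (ins k u b₀) := hb.trans hYb.symm
    have h1 := hext b b₀ hbb (col H.good (ins (k + 1) (ins k u b₀) a₀))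
    have h2 : 0 < (Finset.univ.filter fun z => col H.good (ins (k + 1) (ins k u b₀) z) =
        col H.good (ins (k + 1) (ins k u b₀) a₀)).card :=
      Finset.card_pos.2 ⟨a₀, Finset.mem_filter.2 ⟨Finset.mem_univ _, rfl⟩⟩
    rw [← h1] at h2
    obtain ⟨z, hz⟩ := Finset.card_pos.1 h2
    have h3 := hsub _ _ _ _ (Finset.mem_filter.1 hz).2
    exact ⟨z, h3.trans h0⟩
  obtain ⟨σ, j, hσ, hYs, hj0, hrj, hK⟩ := H763.exists_orbit hRY hsucc hpred hr (h := h)
    (fun a b hab => hstep a b hab) hYa
  have hcardZ : Fintype.card Z = Z.card := Fintype.card_coe Z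
  rw [hcardZ] at hrj hK
  set K : Z → Z → Prop := H763.KR R (Z.card ^ 2) with hKdef
  have hKrefl : ∀ a, K a a := fun a => H763.KR_refl _ _
  have hKsymm : ∀ a b, K a b → K b a := fun a b => H763.KR_symm
  have hKtrans : ∀ a b c, K a b → K b c → K a c := by
    intro a b c h1 h2
    have := H763.KR_trans (R := R) (a := a) (b := b) (c := c)
    rw [hcardZ] at this
    exact this h1 h2
  have hKstep : ∀ a b c d, R c a → K c d → R d b → K a b := by
    intro a b c d h1 h2 h3
    have := H763.KR_step (R := R) (a := a) (b := b) (c := c) (d := d)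
    rw [hcardZ] at this
    exact this h1 h2 h3
  have hKRel : KRel R (Z.card ^ 2) = K := by
    funext a b
    exact propext (H763.KR_iff R _ a b).symm
  -- the parameters
  obtain ⟨τ, hτ, hsep⟩ := H763.exists_tau K hKrefl H.big
  have hr2 := hr.two_le
  have hrn : r ≤ Z.card := (Nat.le_mul_of_pos_right r hj0).trans hrj
  have hjn : j ≤ Z.card := (Nat.le_mul_of_pos_left j hr.pos).trans hrj
  have hnp : Z.card < p := by
    have h1 := H.big
    have h2 : Z.card + 1 ≤ (Z.card + 1) ^ 3 := Nat.le_self_pow (by norm_num) _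
    omega
  have hsq : Z.card ^ 2 + Z.card + 1 < p := by
    have h1 := H.big
    have h2 : Z.card ^ 2 + Z.card + 1 ≤ (Z.card + 1) ^ 3 := by nlinarith [Nat.zero_le Z.card]
    omega
  have hκp : (κ : ZMod p) ≠ 0 := by
    intro h1
    rw [ZMod.natCast_eq_zero_iff] at h1
    have := Nat.le_of_dvd hκ0 h1
    omega
  have hvF := vl_F hsit (k := k + 1) (by omega) (H.good.vec i hiE)
  set hh : List ℕ := evSubst p g M (evF M (k + 1)) i with hhdef
  have hval := hVL p g Z hsit M k hk hsq hh hvF.1 u R (by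
    intro v hv
    have h1 : extT (k + 1) v (v (k + 1)) = ins (k + 1) (ins k u (v k)) (v (k + 1)) := by
      funext l
      unfold extT ins
      split_ifs with h2 h3
      · exact hv l h3
      · rw [show l = k by omega]
      · rfl
    have h2 : vl Z M hh v = if col H.good (ins (k + 1) (ins k u (v k)) (v (k + 1))) = i
        then 1 else 0 := by
      rw [hvF.2, h1, EvN.vl_col H.good hiE]
    constructor
    · intro h3
      rw [h2, if_pos h3]
    · intro h3
      rw [h2, if_neg h3]) κ τ
  have hvec := hVec p g Z hsit M k hk hh hvF.1 κ τ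
  apply EvN.cyc_false H.ctx H.good hr hrn
    (b := fun t => (scT p g M k κ hh)^[j * t] (scB0 p g M k (scK p g M k hh) τ))
    (fun t _ => hvec (j * t)) ?_ (fun t => B0 K τ (σ^[j * t] a₀))
    ?_ (fun s => ins k u (σ^[j * s] a₀)) ?_ ?_
  · intro t ht
    apply H.stab
    unfold scTestsN
    apply List.mem_append_right
    apply List.mem_append_right
    refine List.mem_flatMap.2 ⟨i, hiE, ?_⟩
    unfold scTests1
    apply List.mem_append_right
    refine List.mem_flatMap.2 ⟨k, List.mem_range.2 (by omega), ?_⟩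
    unfold scCov
    refine List.mem_flatMap.2 ⟨τ, List.mem_range.2 (by rw [hlen]; exact hτ), ?_⟩
    refine List.mem_flatMap.2 ⟨κ, List.mem_range.2 (by omega), ?_⟩
    refine List.mem_flatMap.2 ⟨j, List.mem_range.2 (by omega), ?_⟩
    refine List.mem_flatMap.2 ⟨r, List.mem_range.2 (by omega), ?_⟩
    rw [if_pos ((primeB_iff r).2 hr)]
    exact ht
  · intro s hs t ht hst
    by_contra hne
    refine hsep (σ^[j * s] a₀) (σ^[j * t] a₀) ?_ hst
    rw [hK]
    have h1 : j * s < r * j := by rw [mul_comm r j]; exact (Nat.mul_lt_mul_left hj0).2 hs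
    have h2 : j * t < r * j := by rw [mul_comm r j]; exact (Nat.mul_lt_mul_left hj0).2 ht
    rw [Nat.mod_eq_of_lt h1, Nat.mod_eq_of_lt h2]
    intro h3
    exact hne (Nat.eq_of_mul_eq_mul_left hj0 h3).symm
  · intro s _
    exact (hYs (j * s)).trans (hYs (j * 0)).symm
  · intro s _ t _
    have h1 : ∀ l < k, ins k u (σ^[j * s] a₀) l = u l := by
      intro l hl
      unfold ins; rw [if_pos hl]
    have h2 : ins k u (σ^[j * s] a₀) k = σ^[j * s] a₀ := by
      unfold ins; rw [if_neg (lt_irrefl _)]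
    have h3 := hval (j * t) _ h1
    rw [h2, hKRel] at h3
    rw [h3]
    rw [H763.Tst_iter hRY hκp hκ hσ hKstep hKrefl (j * t) (B0 K τ)
      (fun a b _ _ hab => H763.B0_congr hKsymm hKtrans τ hab) _ (hYs _)]
    rw [← Function.iterate_add_apply]
    apply H763.B0_congr hKsymm hKtrans
    rw [hK, ← mul_add, mul_comm r j, Nat.mul_mod_mul_left, Nat.mul_mod_mul_left, Nat.mod_mod]

end Vale.Agent.P319.SC
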